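import Mathlib
import Vale.Agent.Lib.P314.Formula

/-!
P314 support file: the converse (easy) direction of the two-variable reduction.  A formula in
the variables `x_0, x_1` is a formula in `n ≥ 2` variables of the same size, and evaluating it at
a tuple of `n` matrices only uses the first two of them; hence a hitting set for `n` variables
restricts to a hitting set for two variables.
-/

namespace Vale.Agent.Lib.P314

variable {F : Type} {n : ℕ}

/-- A formula in the two variables `x_0, x_1` read as a formula in `n ≥ 2` variables. -/
def embed (hn : 2 ≤ n) : Formula F 2 → Formula F n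
  | Formula.var i => Formula.var (Fin.castLE hn i)
  | Formula.const c => Formula.const c
  | Formula.add f g => Formula.add (embed hn f) (embed hn g)
  | Formula.mul f g => Formula.mul (embed hn f) (embed hn g)

theorem size_embed (hn : 2 ≤ n) (φ : Formula F 2) : (embed hn φ).size = φ.size := by
  induction φ with
  | var i => rfl
  | const c => rfl
  | add f g hf hg => simp [embed, Formula.size, hf, hg]
  | mul f g hf hg => simp [embed, Formula.size, hf, hg]

/-- The inclusion of the free algebra on `x_0, x_1` into the free algebra on `n ≥ 2`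
variables. -/
noncomputable def rho (F : Type) [Field F] (hn : 2 ≤ n) :
    FreeAlgebra F (Fin 2) →ₐ[F] FreeAlgebra F (Fin n) :=
  FreeAlgebra.lift F (fun i : Fin 2 => FreeAlgebra.ι F (Fin.castLE hn i))

theorem poly_embed [Field F] (hn : 2 ≤ n) (φ : Formula F 2) :
    (embed hn φ).poly = rho F hn φ.poly := by
  induction φ with
  | var i => simp [embed, Formula.poly, rho]
  | const c => simp [embed, Formula.poly]
  | add f g hf hg => simp [embed, Formula.poly, hf, hg]
  | mul f g hf hg => simp [embed, Formula.poly, hf, hg]

theorem lift_rho [Field F] (hn : 2 ≤ n) {d : ℕ} (T : Fin n → Matrix (Fin d) (Fin d) F)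
    (f : FreeAlgebra F (Fin 2)) :
    FreeAlgebra.lift F T (rho F hn f) =
      FreeAlgebra.lift F (fun i : Fin 2 => T (Fin.castLE hn i)) f := by
  have : (FreeAlgebra.lift F T).comp (rho F hn) =
      FreeAlgebra.lift F (fun i : Fin 2 => T (Fin.castLE hn i)) := by
    apply FreeAlgebra.hom_ext
    funext i
    simp [rho]
  exact congrArg (fun g => g f) this

theorem rho_injective (F : Type) [Field F] (hn : 2 ≤ n) : Function.Injective (rho F hn) := by
  classical
  let back : FreeAlgebra F (Fin n) →ₐ[F] FreeAlgebra F (Fin 2) :=
    FreeAlgebra.lift F (fun j : Fin n =>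
      if h : (j : ℕ) < 2 then FreeAlgebra.ι F (⟨j, h⟩ : Fin 2) else 0)
  have hcomp : back.comp (rho F hn) = AlgHom.id F (FreeAlgebra F (Fin 2)) := by
    apply FreeAlgebra.hom_ext
    funext i
    have hi : (i : ℕ) < 2 := i.isLt
    simp only [rho, back, Function.comp_apply, FreeAlgebra.lift_ι_apply,
      Fin.val_castLE, AlgHom.coe_comp, AlgHom.coe_id, id_eq]
    rw [dif_pos hi]
  intro a b hab
  have h1 := congrArg (fun g => g a) hcomp
  have h2 := congrArg (fun g => g b) hcomp
  simp only [AlgHom.comp_apply, AlgHom.id_apply] at h1 h2
  rw [← h1, ← h2, hab]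

/-- A hitting set for the formulas of size at most `s` in `n ≥ 2` variables restricts, by keeping
the first two matrices of every tuple, to a hitting set for the formulas of size at most `s` in
two variables. -/
theorem restrict_hitting (F : Type) [Field F] (n s N : ℕ) (hn : 2 ≤ n)
    (H : Fin N → (d : ℕ) × (Fin n → Matrix (Fin d) (Fin d) F))
    (hH : IsHittingSet F n s N H) :
    IsHittingSet F 2 s N
      (fun k => ⟨(H k).1, fun i : Fin 2 => (H k).2 (Fin.castLE hn i)⟩) := by
  intro φ hsize hne
  have h1 : (embed hn φ).size ≤ s := by rw [size_embed]; exact hsize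
  have h2 : (embed hn φ).poly ≠ 0 := by
    rw [poly_embed]
    intro h0
    apply hne
    apply rho_injective F hn
    rw [h0, map_zero]
  obtain ⟨k, hk⟩ := hH (embed hn φ) h1 h2
  refine ⟨k, ?_⟩
  rw [poly_embed, lift_rho] at hk
  exact hk

end Vale.Agent.Lib.P314
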